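import Vale.Agent.P209.Bdl.B3

namespace Vale.Agent.Results.P209.Relative

open Vale.Agent.P209

/-- Families of cases of Siegel-Yao Conjecture A.
(A) strong packing stability, as an equivalence: all capacities at most `ε R`, with `ε` depending
only on `n`;
(B) all `k ≤ 2 ^ n`;
(C) any `n + 1` balls (and more if the largest ball is close to `R`), medium balls which fill a
small share of the complement of the largest ball, and arbitrarily many balls which are small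
compared with `R - max r`;
(D) all families of total volume less than `2 ^ (1 - n)` of the volume of the ball;
(E), (G) relative packing stability: big balls which satisfy a criterion with room to spare, and
arbitrarily many small balls, without loss of volume;
(F) the chain criterion, for any `k`: `r_0 + r_N + r_(2N) + ... + r_(qN) + r_(qN+1) < R` for all
`q` with `q N + 1 < k`, where `N = 2 ^ n - 1` (for `k ≤ 2 ^ n` this is the two ball condition; for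
`k = 2 ^ n + 1` it only adds that the largest and the two smallest capacities have sum less than
`R`);
(G) uses `p` steps of the chain criterion and a criterion of Meir-Moser type for the tail;
(H) one arbitrary ball, and balls which fill at most `3 ^ (-n)` of its complement;
(I) for fixed `n`, the conjecture holds outside a set of parameters whose proportion decays
exponentially with the number `k` of balls. -/
theorem result :
    (∀ n : ℕ, 2 ≤ n → ∃ ε : ℝ, 0 < ε ∧ ∀ (k : ℕ) (R : ℝ) (r : Fin k → ℝ), 0 < R →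
      (∀ i, 0 < r i ∧ r i ≤ ε * R) → (Packs (openBall n R) r ↔ ∑ i, r i ^ n < R ^ n)) ∧
    (∀ (n k : ℕ), 1 ≤ n → 1 ≤ k → k ≤ 2 ^ n → ∀ (R : ℝ) (r : Fin k → ℝ), 0 < R →
      (∀ i, 0 < r i) → ∑ i, r i ^ n < R ^ n → (∀ i j, i < j → r i + r j < R) →
      Packs (openBall n R) r) ∧
    (∀ n : ℕ, 2 ≤ n → ∃ ε : ℝ, 0 < ε ∧ ∀ (k : ℕ) (R : ℝ) (r : Fin k → ℝ), 0 < R →
      (∀ i, 0 < r i) → ∑ i, r i ^ n < R ^ n → (∀ i j, i < j → r i + r j < R) →
      ∀ (i0 : Fin k) (B : Finset (Fin k)), (∀ i, r i ≤ r i0) →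
      (B.card : ℝ) ≤ n + (ε * R / (R - r i0)) ^ (n - 1) →
      ∑ i with i ≠ i0 ∧ i ∉ B ∧ ε * (R - r i0) < r i, r i ^ n ≤ ε * (R ^ n - r i0 ^ n) →
      Packs (openBall n R) r) ∧
    (∀ (n k : ℕ), 1 ≤ n → ∀ (R : ℝ) (r : Fin k → ℝ), 0 < R → (∀ i, 0 < r i) →
      2 ^ (n - 1) * ∑ i, r i ^ n < R ^ n → Packs (openBall n R) r) ∧
    (∀ n : ℕ, 2 ≤ n → ∀ γ : ℝ, 0 < γ → ∃ ε : ℝ, 0 < ε ∧ ∀ (k : ℕ) (R : ℝ) (r : Fin k → ℝ),
      0 < R → (∀ i, 0 < r i) → 2 ^ (n - 1) * ∑ i with ε * R < r i, r i ^ n ≤ (1 - γ) * R ^ n →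
      ∑ i, r i ^ n < R ^ n → Packs (openBall n R) r) ∧
    (∀ (n k N : ℕ) (R : ℝ) (r : ℕ → ℝ), 1 ≤ n → Antitone r → (∀ i, 0 ≤ r i) →
      (∀ i, i < k → 0 < r i) → r 0 < R → N = 2 ^ n - 1 →
      (∀ q, q * N + 1 < k → ∑ i ∈ Finset.range (q + 1), r (i * N) + r (q * N + 1) < R) →
      Packs (openBall n R) (fun i : Fin k => r i)) ∧
    (∀ n : ℕ, 2 ≤ n → ∀ γ : ℝ, 0 < γ → ∃ ε : ℝ, 0 < ε ∧
      ∀ (p m j M k K N : ℕ) (R A L : ℝ) (r s : ℕ → ℝ), 0 < R → j ≤ m → Antitone r →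
      (∀ i, 0 ≤ r i) → (∀ i, i < k → 0 < r i) → N = 2 ^ n - 1 → K = m ^ n - j ^ n + 1 →
      r 0 ≤ (1 - γ) * R →
      (∀ q, q < p → q * N + 1 < M →
        ∑ i ∈ Finset.range (q + 1), r (i * N) + r (q * N + 1) ≤ (1 - γ) * R) →
      (∀ i, s i = r (p * N + i)) → A = (1 - γ) * R - ∑ i ∈ Finset.range p, r (i * N) →
      L = max (s 0) (j * s 1) + ∑ q ∈ Finset.Ico j m, s (q ^ n - j ^ n + 1) →
      (p * N < M → L ≤ A ∧ (K < M - p * N →
        L ^ n + ∑ i ∈ Finset.Ico (K + 1) (M - p * N), s i ^ n ≤ (A - s K) ^ n)) →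
      r M ≤ ε * R → ∑ i ∈ Finset.range k, r i ^ n < R ^ n →
      Packs (openBall n R) (fun i : Fin k => r i)) ∧
    (∀ (n k : ℕ), 3 ≤ n → ∀ (R : ℝ) (r : Fin k → ℝ), 0 < R → (∀ i, 0 < r i) →
      ∑ i, r i ^ n < R ^ n → (∀ i j, i < j → r i + r j < R) → ∀ i0 : Fin k, (∀ i, r i ≤ r i0) →
      3 ^ n * ∑ i with i ≠ i0, r i ^ n ≤ R ^ n - r i0 ^ n → Packs (openBall n R) r) ∧
    (∀ n : ℕ, 2 ≤ n → ∃ C q : ℝ, 0 < C ∧ 0 < q ∧ q < 1 ∧ ∀ k : ℕ,
      MeasureTheory.volume {r : Fin k → ℝ | ((∀ i, 0 < r i) ∧ ∑ i, r i ^ n < 1 ∧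
        ∀ i j, i < j → r i + r j < 1) ∧ ¬ Packs (openBall n 1) r} ≤
      ENNReal.ofReal (C * q ^ k) * MeasureTheory.volume {r : Fin k → ℝ | (∀ i, 0 < r i) ∧
        ∑ i, r i ^ n < 1 ∧ ∀ i j, i < j → r i + r j < 1}) :=
  Vale.Agent.P209.V.main2

end Vale.Agent.Results.P209.Relative
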